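import Crest.Agent.X212.Kg34.Fr
import Crest.Agent.X212.Cob34.Xi
import Crest.Agent.X212.Qab60.Lq

/-! Row 212, **RFQ-KGEN** (helper34). -/

set_option autoImplicit false
set_option linter.unusedSectionVars false
noncomputable section
open scoped Manifold ContDiff Topology InnerProductSpace Real
open Set Function Filter Module ContinuousLinearMap

namespace Crest.Agent.X212.Kg34
open An Wz78 Hol14 Qab60
open Fred93 (Fr)
open Abel74 (RedOn fm)

section cut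
variable {E : Type} [NormedAddCommGroup E] [NormedSpace ℝ E] [FiniteDimensional ℝ E]
  [MeasurableSpace E] [BorelSpace E]
  {HM : Type} [TopologicalSpace HM] {I : ModelWithCorners ℝ E HM} [I.Boundaryless]
  {M : Type} [TopologicalSpace M] [ChartedSpace HM M] [IsManifold I ∞ M] [T2Space M]
  [MeasurableSpace M] [BorelSpace M] [SecondCountableTopology M] {ι : Type} [Fintype ι]
  {lam : Type} [Fintype lam] {m : Md M ι lam} {B : Base M ι lam} {k : Cut M lam}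
  {G : Geo I M ι lam} {W : m.Cn} {η : m.A} {σ τ : CL (k.H B m) (k.H B m)}

/-- perturbations that respect the splitting -/
structure Gd (G : Geo I M ι lam) (η : m.A) (σ : CL (k.H B m) (k.H B m)) : Prop where
  cpt : IsCompactOperator σ
  o : On (k.pi B G.F m k.x0) σ
  J : Commute σ (JH m.J (m.pp B k.x0))
  p : Commute σ (cH m B k (ph B k G.F η))
  n : Commute σ (cH m B k (ph B k G.F (-η)))

theorem Gd.zero : Gd (k := k) (B := B) G η 0 :=
  ⟨isCompactOperator_zero, ⟨fun _ => map_zero _, fun _ => rfl⟩, .zero_left _, .zero_left _, .zero_left _⟩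

theorem Gd.add (h : Gd G η σ) (h' : Gd G η τ) : Gd G η (σ + τ) :=
  ⟨h.cpt.add h'.cpt, h.o.add h'.o, h.J.add_left h'.J, h.p.add_left h'.p, h.n.add_left h'.n⟩

theorem Gd.smul (h : Gd G η σ) (r : ℝ) : Gd G η (r • σ) :=
  ⟨h.cpt.smul r, h.o.smul r, h.J.smul_left r, h.p.smul_left r, h.n.smul_left r⟩

variable (hB : B.OK I) (H : m.OK I B) (hk : k.OK B G.F) (C : m.IsConn B G W) (hG : G.OK B)
  {ξ : M → m.A} (R : RedOn G.F m W k.supp ξ) (h : Gd G (ξ k.x0) σ) {N : ℕ}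
  (g : Gn (k.pi B G.F m k.x0) (k.T B G.F m W - σ) N)
include hB H hk C hG R h g

theorem cut_gen {n : ℤ} (hn : flux I k (fm G.F m W ξ) = n * (2 * π)) :
    (n = 1 ∨ n = -1 → finrank ℝ (k.T B G.F m W - σ).ker ≤ 2) ∧
      (n = 0 → ∀ ψ, (k.T B G.F m W - σ) ψ = 0 → ψ = 0) := by
  have R' := redOn_neg R
  have a1 := R.mem _ x0_mem
  have a2 := R.sq _ x0_mem
  have b1 := R'.mem _ x0_mem
  have b2 := R'.sq _ x0_mem
  have c : Commute (k.T B G.F m W) (cH m B k (ph B k G.F (ξ k.x0))) :=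
    ContinuousLinearMap.ext fun ψ => (ph_T hB H hk C R ψ).symm
  have c' : Commute (k.T B G.F m W) (cH m B k (ph B k G.F (-ξ k.x0))) :=
    ContinuousLinearMap.ext fun ψ => (ph_T hB H hk C R' ψ).symm
  refine g.fin (fr_sub hB H hk (cn0_of C) h.cpt).1 (sub_ph' hB H hk a1 a2) (sub_ph hB H hk a1 a2)
    (rk_ph hB H hk a1 a2) (c.sub_left h.p) (sub_ph' hB H hk b1 b2) (sub_ph hB H hk b1 b2)
    (rk_ph hB H hk b1 b2) (c'.sub_left h.n) (fun ψ e => (split hB H hk (ξ k.x0) ψ).trans ?_)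
    (fr_half hB H hk C R hG hn h.cpt) (fr_half hB H hk C R' hG
      (by rw [Abel74.fm_neg, flux_neg, hn]; simp) h.cpt)
  rw [ker_U hB H hk (cn0_of C) h.o (sub_eq_zero.1 e), sub_self, add_zero]

theorem cut_line (f : |flux I k (fm G.F m W ξ)| = 2 * π) {ψ ψ' : k.H B m} (n : ‖ψ‖ = 1)
    (e : k.T B G.F m W ψ = σ ψ) (n' : ‖ψ'‖ = 1) (e' : k.T B G.F m W ψ' = σ ψ') :
    ∃ η : Circle, ψ' = cH m B k (csE m.J η) ψ := by
  have S := cp_pp hB H k.x0
  have := (fr_sub hB H hk (cn0_of C) h.cpt).1.finite_ker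
  have l : finrank ℝ (k.T B G.F m W - σ).ker ≤ 2 := (eq_or_eq_neg_of_abs_eq f).elim
    (fun f => (cut_gen hB H hk C hG R h g (n := 1) (by simpa using f)).1 (.inl rfl))
    fun f => (cut_gen hB H hk C hG R h g (n := -1) (by simpa using f)).1 (.inr rfl)
  obtain ⟨η, k⟩ := Cob34.line (JH_skew S) (JH_JH S) l (ψ := ψ) (ψ' := ψ') (sub_eq_zero.2 e)
    (sub_eq_zero.2 ((JH_T hB H hk (cn0_of C) ψ).symm.trans ((congrArg _ e).trans
      (DFunLike.congr_fun h.J.eq ψ).symm))) (sub_eq_zero.2 e') n n'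
  exact ⟨η, k.trans (rH_csE S _ ψ).symm⟩

end cut

open M Rf65

variable {Wi : Type} {X : Mf 4} {A κ lam : Type} [Fintype A] [Fintype κ] [Fintype lam]
  [DecidableEq lam] {M : Mark X A κ} {W : World M} {N : ML M lam} {Λ : Lns W N}
  {A' h : Type} [Fintype A'] [DecidableEq A'] [Fintype h] {r n : ℕ}
  (J : Job Wi Λ A' h r n) (c : M.Cl)

variable {J c} in
theorem gd (hJ : J.OK) {σ s} (hσ : σ ∈ J.𝒦) (ov : J.Ov σ c s) {Ω x ξ} (hΩ : IsClopen Ω)
    (a : Ab (J.B c) (J.G c s) Ω x ξ) {l} (hl : l ∈ J.unc c) (sub : (J.cut c l).supp ⊆ Ω) (q) :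
    Gd (J.G c s) (ξ (J.cut c l).x0) (J.σc c q s l x) := by
  have hB : (J.B c).OK _ := Λ.B_ok J.m c
  have hG := hJ.G_ok hσ ov
  have hk := hJ.ct σ hσ s ov.1 c ov.2 l hl
  refine Finset.sum_induction _ _ (fun _ _ => Gd.add) .zero fun w _ => ?_
  by_cases z : J.cc l w s = 0
  · simpa only [z, mul_zero, zero_smul] using Gd.zero
  obtain ⟨_, i⟩ := hJ.tc_in hσ ov z
  have u := Cob34.xi _ _ _ _ _ _ _ _ _ x ξ _ _ hB hG (hJ.tame hσ ov) hΩ a hk (sub x0_mem) i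
  have v := Cob34.xi _ _ _ _ _ _ _ _ _ x (fun z => -ξ z) _ _ hB hG (hJ.tame hσ ov) hΩ
    ⟨a.adm, ⟨redOn_neg a.rd.toRedOn, a.rd.op, fun z hz => by rw [a.rd.off z hz, neg_zero]⟩, a.z⟩ hk
    (sub x0_mem) i
  exact Gd.smul ⟨cpt_tc _, on_tc hB a.adm.ok hk _, u.1, u.2, v.2⟩ _

/-- **RFQ-KGEN** -/
theorem kgen : KgenL J c := by
  classical
  intro hJ sep σ s ⟨hσ, s1, s2⟩ Ω x ξ hΩ a l hl sub ρ ri q
  have ov : J.Ov σ c s := ⟨J.cl_dom s1, s2⟩
  have hB : (J.B c).OK _ := Λ.B_ok J.m c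
  have hG := hJ.G_ok hσ ov
  have hk := hJ.ct σ hσ s ov.1 c s2 l hl
  have R := a.rd.toRedOn.mono sub
  have gd := gd hJ hσ ov hΩ a hl sub
  obtain ⟨N, hN⟩ := seq ((J.cut c l).pi (J.B c) (J.G c s).F x.m (J.cut c l).x0) (fr_sub hB a.adm.ok hk
    (cn0_of a.adm.conn) (gd q).cpt).1 (cp_pp hB a.adm.ok _)
  choose wd w1 w2 w3 w4 using fun i : Fin N × Fin N × Bool =>
    ri ⟨i.1, i.2.1, bif i.2.2 then 1 else Complex.I, .one⟩ trivial
  let E := Fintype.linearCombination ℝ fun i => Finsupp.single (wd i) (1 : ℝ)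
  obtain ⟨Λ₀, e0, e4⟩ : ∃ Λ₀ : (Wi →₀ ℝ) →ₗ[ℝ] _, (∀ q, J.σc c q s l x = Λ₀ q) ∧ ∀ w, Λ₀ (.single w 1) =
      J.cc l w s • x.tc (J.B c) (J.G c s).F (J.cut c l) ((J.tp c).tc (J.tc l w)) :=
    ⟨Finsupp.linearCombination ℝ fun w => J.cc l w s • _, fun q => by
      simp only [Finsupp.linearCombination_apply, smul_smul]; rfl,
      fun w => (Finsupp.linearCombination_single ..).trans (one_smul ..)⟩
  obtain ⟨p, p0, hp⟩ := hN (LinearMap.toContinuousLinearMap (Λ₀ ∘ₗ E)) fun i => ⟨_, w2 i, by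
    simp only [E, LinearMap.coe_toContinuousLinearMap', LinearMap.comp_apply,
      Fintype.linearCombination_apply_single, one_smul, e4, w1]; rfl⟩
  have e2 : ∀ p w, E p w = ∑ i, p i * Finsupp.single (wd i) (1 : ℝ) w := fun p w => by
    simp only [E, Fintype.linearCombination_apply, Finsupp.finset_sum_apply, Finsupp.smul_apply, smul_eq_mul]
  have e3 : ∀ p w, (∀ i, wd i ≠ w) → (q + E p) w = q w := fun p w k => by
    simp [e2, Finsupp.single_apply, k]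
  have g := fun i => (congrArg (Gn _ · N) ((sub_sub _ _ _).trans (congrArg (_ - ·) ((congrArg (· + _)
    (e0 q)).trans ((Λ₀.map_add q (E (p i))).symm.trans (e0 _).symm))))).mp (hp i)
  refine ⟨fun i => q + E (p i), ⟨Finset.univ.image wd, fun i w k => e3 _ _ fun j e =>
    k (e ▸ Finset.mem_image_of_mem _ (Finset.mem_univ j)), fun w => ?_⟩, fun i w k => ?_,
    fun f => .of_forall fun i ψ ψ' u u' => cut_line hB a.adm.ok hk a.adm.conn hG R (gd _) (g i) f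
      u.1 u.2 u'.1 u'.2, fun f => .of_forall fun i ψ u => ?_⟩
  · simp only [Finsupp.add_apply, e2]
    exact (Continuous.tendsto' (f := fun p : _ → ℝ => q w + ∑ i, p i *
      Finsupp.single (wd i) (1 : ℝ) w) (by fun_prop) 0 _ (by simp)).comp p0
  · obtain ⟨j, rfl⟩ : ∃ j, wd j = w := by_contra fun z => k (e3 _ _ fun j e => z ⟨j, e⟩)
    exact ⟨(sep _).resolve_right fun z => w2 j (congrFun (z l) s), (w4 j).1⟩
  · simpa [(cut_gen hB a.adm.ok hk a.adm.conn hG R (gd _) (g i) (n := 0) (by simpa using f)).2 rfl ψ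
      (sub_eq_zero.2 u.2)] using u.1

end Crest.Agent.X212.Kg34
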