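import Crest.Agent.X212.Cob34.Toe

/-! Row 212, KGEN (helper34): generic finite rank perturbations of a Toeplitz operator. -/

set_option autoImplicit false
set_option linter.unusedSectionVars false
noncomputable section
open scoped Topology InnerProductSpace
open Set Function Filter Module ContinuousLinearMap

namespace Crest.Agent.X212.Kg34
open An Wz78 Hol14
open Fred93 (Fr)

section abs
variable {H : Type} [NormedAddCommGroup H] [InnerProductSpace ℝ H] [CompleteSpace H] {L : H →L[ℝ] H}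

theorem cpt_adj {K : H →L[ℝ] H} (h : K.toLinearMap.HasNoetherianRange) :
    IsCompactOperator (adjoint K) := by
  have : IsNoetherian ℝ K.range := h
  have := FiniteDimensional.complete ℝ K.range
  have := FiniteDimensional.proper_real K.range
  rw [show K = K.range.subtypeL ∘L K.rangeRestrict from rfl, adjoint_comp]
  exact (isCompactOperator_of_locallyCompactSpace_dom (adjoint K.range.subtypeL)).clm_comp
    (adjoint K.rangeRestrict)

theorem fr_adj (h : L.IsFredholm) : (adjoint L).IsFredholm := by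
  obtain ⟨v, a, b⟩ := h.exists_isQuasiInverse
  have a := cpt_adj (K := v ∘L L - .id ℝ H) (LinearMap.FiniteRangeSetoid.equiv_iff_hasNoetherianRange.1 a)
  have b := cpt_adj (K := L ∘L v - .id ℝ H) (LinearMap.FiniteRangeSetoid.equiv_iff_hasNoetherianRange.1 b)
  rw [map_sub, adjoint_comp, adjoint_id] at a b
  exact Fred93.isFredholm_of_parametrix _ _ b a

theorem trunc {V : Type} [NormedAddCommGroup V] [NormedSpace ℝ V] (h : L.IsFredholm)
    (φ : ℕ → H →L[ℝ] V) (hφ : ∀ ψ ≠ 0, ∃ b, φ b ψ ≠ 0) :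
    ∀ᶠ N in atTop, ∀ᶠ L' in 𝓝 L, ∀ ψ, L' ψ = 0 → (∀ b < N, φ b ψ = 0) → ψ = 0 := by
  by_contra k
  have k : ∀ N : ℕ, ∃ L' ∈ Metric.ball L (1 / (N + 1)), ∃ ψ, ‖ψ‖ = 1 ∧ L' ψ = 0 ∧
      ∀ b < N, φ b ψ = 0 := fun N => by_contra fun c => k ((eventually_ge_atTop N).mono fun N' l =>
    mem_of_superset (Metric.ball_mem_nhds L (ε := 1 / (N + 1)) (by positivity)) fun L' m ψ a b =>
      by_contra fun z => c ⟨L', m, ‖ψ‖⁻¹ • ψ, norm_smul_inv_norm z, by rw [map_smul, a, smul_zero],
        fun i hi => by rw [map_smul, b i (hi.trans_le l), smul_zero]⟩)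
  choose A a ψ n z f using k
  have u := Ultrafilter.of_le (atTop : Filter ℕ)
  obtain ⟨χ, t, n', -⟩ := exists_lim_ker h (.of atTop) (Tendsto.mono_left (tendsto_iff_dist_tendsto_zero.2
    (squeeze_zero (fun _ => dist_nonneg) (fun N => (a N).le) tendsto_one_div_add_atTop_nhds_zero_nat)) u)
    (.of_forall n) (.of_forall z)
  obtain ⟨b, e⟩ := hφ χ (by rintro rfl; simp at n')
  exact e (tendsto_nhds_unique (((φ b).continuous.tendsto _).comp t) (tendsto_const_nhds.congr'
    (((eventually_gt_atTop b).filter_mono u).mono fun N l => (f N b l).symm)))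

theorem drop (h : L.IsFredholm) {A : H →L[ℝ] H} {ψ χ : H} (a : L ψ = 0) (b : adjoint L χ = 0)
    (c : ⟪A ψ, χ⟫_ℝ ≠ 0) : ∀ᶠ t in 𝓝[≠] (0 : ℝ), finrank ℝ (L - t • A).ker < finrank ℝ L.ker := by
  let φ : H →L[ℝ] ℝ := innerSL ℝ χ ∘L A
  have := h.finite_ker
  have l : finrank ℝ (L.prod φ).ker < finrank ℝ L.ker := Submodule.finrank_lt_finrank_of_lt
    (lt_of_le_not_ge (fun _ k => congrArg Prod.fst k) fun k =>
      c ((real_inner_comm _ _).trans (congrArg Prod.snd (k a))))
  filter_upwards [self_mem_nhdsWithin, ((Continuous.tendsto' (f := fun t : ℝ => (L - t • A).prod φ)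
    ((prodL ℝ).continuous.comp (f := fun t : ℝ => (L - t • A, φ)) (by fun_prop)) 0 _ (by simp)).eventually
      ((Fr.of h).prod φ).eventually').filter_mono nhdsWithin_le_nhds] with t t0 k
  have := k.1.1.finite_ker
  refine (Submodule.finrank_mono fun u hu => ?_).trans_lt (k.2.trans_lt l)
  refine Prod.ext hu ?_
  have : ⟪χ, L u⟫_ℝ = 0 := by rw [← adjoint_inner_left, b, inner_zero_left]
  rw [show L u = t • A u from sub_eq_zero.1 hu, real_inner_smul_right] at this
  exact (mul_eq_zero.1 this).resolve_left t0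

theorem gen {P : Type} [NormedAddCommGroup P] [NormedSpace ℝ P] (h : L.IsFredholm)
    (Λ : P →L[ℝ] H →L[ℝ] H) : ∃ᶠ p in 𝓝 (0 : P), ∀ ψ χ, (L - Λ p) ψ = 0 →
      adjoint (L - Λ p) χ = 0 → ∀ e, ⟪Λ e ψ, χ⟫_ℝ = 0 := by
  refine frequently_iff.2 fun {U} hU => ?_
  have hF := (Continuous.tendsto' (f := fun p => L - Λ p) (by fun_prop) 0 _ (by simp)).eventually
    (Fr.of h).eventually
  obtain ⟨V, s, o, m⟩ := mem_nhds_iff.1 (inter_mem hU hF)
  obtain ⟨p, hp, mn⟩ := exists_minimalFor_of_wellFoundedLT (· ∈ V)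
    (fun p => finrank ℝ (L - Λ p).ker) ⟨0, m⟩
  refine ⟨p, (s hp).1, fun ψ χ a b e => by_contra fun c => ?_⟩
  obtain ⟨t, k, k'⟩ := ((drop (s hp).2.1 a b c).and (((Continuous.tendsto' (f := fun t : ℝ => p + t • e)
    (by fun_prop) 0 _ (by simp)).eventually (o.mem_nhds hp)).filter_mono nhdsWithin_le_nhds)).exists
  rw [sub_sub, ← map_smul, ← map_add] at k
  exact k.not_ge (mn k' k.le)

end abs

variable {κ : Type} [Fintype κ] [DecidableEq κ] {J p π q q' : En κ} {L : CL (Hd J p) (Hd J p)}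

variable (π L) in
/-- generic operators -/
structure Gn (N : ℕ) : Prop where
  k : ∀ ψ, L ψ = 0 → (∀ b < N, fc J b ψ = 0) → ψ = 0
  c : ∀ ψ, adjoint L ψ = 0 → (∀ b < N, fc J b ψ = 0) → ψ = 0
  o : ∀ ψ χ, L ψ = 0 → adjoint L χ = 0 → ∀ a < N, ∀ b < N, ∀ w, w = 1 ∨ w = Complex.I →
    ⟪frk J p a b (π * csE J w * 1 * π) ψ, χ⟫_ℝ = 0

/-- the restriction to the Hardy space of `q` -/
abbrev res (q : En κ) (L : CL (Hd J p) (Hd J p)) := rH J p J q q ∘L L ∘L rH J q J p q

theorem Gn.half {N : ℕ} (g : Gn π L N) (F : L.IsFredholm) (S : Sub J p q) (S' : Sub J π q)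
    (h2 : rk q = 2) (c : Commute L (rH J p J p q)) {ψ} (a : L ψ = 0) (z : rH J p J p q ψ ≠ 0) :
    Surjective (res q L) ∧ ¬Injective (res q L) := by
  have c := fun u => DFunLike.congr_fun c.eq u
  simp only [mul_apply_eq_comp] at c
  have sy : ∀ u v, ⟪rH J p J p q u, v⟫_ℝ = ⟪u, rH J p J p q v⟫_ℝ := fun u v => by
    rw [inner_rH, Sym.trn S.hq.sym]
  have a' : L (rH J p J p q ψ) = 0 := by rw [c, a, map_zero]
  refine ⟨fun η => ?_, fun i => z ?_⟩
  · have := F.isClosed_range.completeSpace_coe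
    obtain ⟨u, e⟩ : rH J q J p q η ∈ L.range := by
      rw [← L.range.orthogonal_orthogonal, orthogonal_range, Submodule.mem_orthogonal]
      intro χ b
      obtain ⟨n, l, k⟩ : ∃ n < N, fc J n (rH J p J p q ψ) ≠ 0 := by
        by_contra! k; exact z (g.k _ a' k)
      have : rH J p J p q χ = 0 := g.c _ (ext_inner_left ℝ fun u => by
        rw [adjoint_inner_right, ← sy, ← c, ← adjoint_inner_right, show adjoint L χ = 0 from b,
          inner_zero_right, inner_zero_right]) fun m l' => by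
        have e := fun w hw => (orth_frk S.hp).symm.trans (g.o _ χ a' b m l' n l w hw)
        have e' : ∀ w, π * csE J w * 1 * π * q = csE J w * q := fun w => by
          rw [mul_one, mul_assoc, S'.pq, mul_assoc, csE_comm S.hq.comm, ← mul_assoc, S'.pq]
        rw [S.fc_rH] at k ⊢
        simp only [S.fc_rH, ← mul_apply_eq_comp, e'] at e
        refine line_zero S.hq h2 k fun w => ?_
        have e1 := e _ (.inl rfl)
        have e2 := e _ (.inr rfl)
        rw [csE_one] at e1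
        rw [csE_I] at e2
        rw [csE, add_mul, smul_mul_assoc, smul_mul_assoc, add_apply, smul_apply, smul_apply,
          inner_add_left, real_inner_smul_left, real_inner_smul_left, e1, e2]
        simp
      rw [← S.proj_incl η, S.incl_proj, ← sy, this, inner_zero_left]
    refine ⟨rH J p J q q u, ?_⟩
    simp only [ContinuousLinearMap.comp_apply]
    rw [S.incl_proj, c, show L u = _ from e, ← S.incl_proj, S.proj_incl, S.proj_incl]
  · rw [← S.incl_proj, (injective_iff_map_eq_zero _).1 i (rH J p J q q ψ) (by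
      simp only [ContinuousLinearMap.comp_apply]; rw [S.incl_proj, a', map_zero]), map_zero]

variable {N : ℕ} (g : Gn π L N) (F : L.IsFredholm) (S : Sub J p q) (S' : Sub J π q)
  (h2 : rk q = 2) (c : Commute L (rH J p J p q))
include g F S S' h2 c

theorem Gn.zero {n : ℤ} (f : Fr (res q L) n) (l : n ≤ 0) {ψ} (a : L ψ = 0) : rH J p J p q ψ = 0 :=
  by_contra fun z => let ⟨s, i⟩ := g.half F S S' h2 c a z
    i ((f.cast (l.antisymm (f.nonneg_of_surj s))).inj_of_surj s)

theorem Gn.two (f : Fr (res q L) 2) (e : ∀ ψ, L ψ = 0 → rH J p J p q ψ = ψ) :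
    finrank ℝ L.ker ≤ 2 := by
  by_cases z : ∀ ψ, L ψ = 0 → ψ = 0
  · rw [LinearMap.ker_eq_bot'.2 z, finrank_bot]; omega
  push Not at z
  obtain ⟨ψ, a, z⟩ := z
  have := f.finrank_ker (g.half F S S' h2 c a (by rwa [e ψ a])).1
  have := f.1.finite_ker
  refine (LinearMap.finrank_le_finrank_of_injective (f := (rH J p J q q).toLinearMap.restrict
    (p := L.ker) (q := (res q L).ker) fun ψ hψ => ?_) ((injective_iff_map_eq_zero _).2 fun ψ h =>
      Subtype.ext ((e _ ψ.2).symm.trans ((S.incl_proj _).symm.trans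
        ((congrArg _ (congrArg Subtype.val h)).trans (map_zero _)))))).trans (by omega)
  exact (congrArg (rH J p J q q) ((congrArg L ((S.incl_proj ψ).trans (e ψ hψ))).trans hψ)).trans
    (map_zero _)

theorem Gn.fin (T : Sub J p q') (T' : Sub J π q') (h2' : rk q' = 2) (c' : Commute L (rH J p J p q'))
    (sp : ∀ ψ, L ψ = 0 → ψ = rH J p J p q ψ + rH J p J p q' ψ) {n : ℤ} (f : Fr (res q L) (2 * n))
    (f' : Fr (res q' L) (2 * -n)) :
    (n = 1 ∨ n = -1 → finrank ℝ L.ker ≤ 2) ∧ (n = 0 → ∀ ψ, L ψ = 0 → ψ = 0) := by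
  refine ⟨?_, fun e ψ a => by
    rw [sp ψ a, g.zero F S S' h2 c f (by omega) a, g.zero F T T' h2' c' f' (by omega) a, add_zero]⟩
  rintro (rfl | rfl)
  · exact g.two F S S' h2 c f fun ψ a => Eq.symm (by
      simpa only [g.zero F T T' h2' c' f' (by omega) a, add_zero] using sp ψ a)
  · exact g.two F T T' h2' c' f' fun ψ a => Eq.symm (by
      simpa only [g.zero F S S' h2 c f (by omega) a, zero_add] using sp ψ a)

omit g S S' h2 c in
variable (π) in
/-- generic operators are dense -/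
theorem seq (S : CP J p) : ∃ N, ∀ Λ : (Fin N × Fin N × Bool → ℝ) →L[ℝ] CL (Hd J p) (Hd J p),
    (∀ i, ∃ t ≠ (0 : ℝ), Λ (Pi.single i 1) = t • frk J p i.1 i.2.1
      (π * csE J (bif i.2.2 then 1 else Complex.I) * 1 * π)) →
    ∃ u : ℕ → _, Tendsto u atTop (𝓝 0) ∧ ∀ i, Gn π (L - Λ (u i)) N := by
  have t := fun {L} (f : IsFredholm L) => trunc f (fun b => fc J b ∘L (Hd J p).subtypeL)
    fun _ => exists_fc_ne S
  obtain ⟨N, t1, t2⟩ := ((t F).and (t (fr_adj F))).exists
  refine ⟨N, fun Λ hΛ => ?_⟩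
  have ct := Continuous.tendsto' (f := fun p => L - Λ p) (by fun_prop) 0 _ (by rw [map_zero, sub_zero])
  obtain ⟨u, u0, hu⟩ := exists_seq_forall_of_frequently ((gen F Λ).and_eventually
    ((ct.eventually t1).and (((adjoint.continuous.tendsto _).comp ct).eventually t2)))
  refine ⟨u, u0, fun i => ⟨(hu i).2.1, (hu i).2.2, fun ψ χ a1 a2 a ha b hb w hw => ?_⟩⟩
  obtain ⟨j, rfl⟩ : ∃ j : Bool, w = bif j then 1 else Complex.I := hw.elim (⟨true, ·⟩) (⟨false, ·⟩)
  obtain ⟨t, t0, e⟩ := hΛ (⟨a, ha⟩, ⟨b, hb⟩, j)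
  have := (hu i).1 ψ χ a1 a2 (Pi.single (⟨a, ha⟩, ⟨b, hb⟩, j) 1)
  rw [e, smul_apply, real_inner_smul_left] at this
  exact (mul_eq_zero.1 this).resolve_left t0

end Crest.Agent.X212.Kg34
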